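import Mathlib

/-!
# P277: numerical contraction of the slice lattice (terminal case)

`S` is the finite set of compact curves of a smooth surface over one point, `I` the intersection
numbers, `k` the canonical degrees, `l t` the degrees of the boundary / nef parts, `d` the
discrepancies.
-/

open Finset

namespace P277Z.Num

variable {J T : Type*} [DecidableEq J] [Fintype T]

/-- the lattice data of a slice -/
structure Dat (S : Finset J) (I : J → J → ℤ) (k : J → ℤ) (l : T → J → ℕ) (β : T → ℝ)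
    (d : J → ℝ) : Prop where
  symm : ∀ a ∈ S, ∀ b ∈ S, I a b = I b a
  off : ∀ a ∈ S, ∀ b ∈ S, a ≠ b → 0 ≤ I a b
  neg : ∃ c : J → ℝ, (∀ a ∈ S, 0 < c a) ∧ ∀ b ∈ S, ∑ a ∈ S, c a * (I a b : ℝ) < 0
  adj : ∀ a ∈ S, -2 ≤ k a + I a a
  eqn : ∀ a ∈ S, (k a : ℝ) + ∑ t, β t * (l t a : ℝ) = ∑ b ∈ S, d b * (I b a : ℝ)

/-- the dual graph is connected -/
def Conn (S : Finset J) (I : J → J → ℤ) : Prop :=
  ∀ A ⊆ S, A.Nonempty → A ≠ S → ∃ a ∈ A, ∃ b ∈ S, b ∉ A ∧ 0 < I a b

/-- negativity lemma -/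
theorem negativity {S : Finset J} {I : J → J → ℤ}
    (off : ∀ a ∈ S, ∀ b ∈ S, a ≠ b → 0 ≤ I a b)
    (neg : ∃ c : J → ℝ, (∀ a ∈ S, 0 < c a) ∧ ∀ b ∈ S, ∑ a ∈ S, c a * (I a b : ℝ) < 0)
    {x : J → ℝ} (hx : ∀ a ∈ S, 0 ≤ ∑ b ∈ S, x b * (I b a : ℝ)) : ∀ a ∈ S, x a ≤ 0 := by
  obtain ⟨c, hc, hn⟩ := neg
  intro a0 ha0
  obtain ⟨a, ha, hmax⟩ := S.exists_max_image (fun a => x a / c a) ⟨a0, ha0⟩
  by_contra hpos
  push Not at hpos
  have hl : 0 < x a / c a := lt_of_lt_of_le (div_pos hpos (hc a0 ha0)) (hmax a0 ha0)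
  set lam := x a / c a with hlam
  have h1 : ∑ b ∈ S, (x b - lam * c b) * (I b a : ℝ) ≤ 0 := by
    refine Finset.sum_nonpos fun b hb => ?_
    by_cases hba : b = a
    · subst hba
      have : x b - lam * c b = 0 := by
        rw [hlam, div_mul_cancel₀ _ (hc b hb).ne']; ring
      rw [this, zero_mul]
    · have h2 : x b - lam * c b ≤ 0 := by
        have := hmax b hb
        rw [div_le_iff₀ (hc b hb)] at this
        linarith
      have h3 : (0 : ℝ) ≤ (I b a : ℝ) := by exact_mod_cast off b hb a ha hba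
      exact mul_nonpos_of_nonpos_of_nonneg h2 h3
  have h2 : ∑ b ∈ S, (x b - lam * c b) * (I b a : ℝ)
      = ∑ b ∈ S, x b * (I b a : ℝ) - lam * ∑ b ∈ S, c b * (I b a : ℝ) := by
    rw [Finset.mul_sum, ← Finset.sum_sub_distrib]
    exact Finset.sum_congr rfl fun b _ => by ring
  have h3 := hx a ha
  have h4 := mul_pos hl (neg_pos.mpr (hn a ha))
  nlinarith

theorem Dat.self_neg {S : Finset J} {I : J → J → ℤ} {k : J → ℤ} {l : T → J → ℕ} {β : T → ℝ}
    {d : J → ℝ} (h : Dat S I k l β d) {a : J} (ha : a ∈ S) : I a a ≤ -1 := by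
  obtain ⟨c, hc, hn⟩ := h.neg
  by_contra hI
  have hI' : 0 ≤ I a a := by omega
  have : 0 ≤ ∑ b ∈ S, c b * (I b a : ℝ) := by
    refine Finset.sum_nonneg fun b hb => mul_nonneg (hc b hb).le ?_
    by_cases hba : b = a
    · subst hba; exact_mod_cast hI'
    · exact_mod_cast h.off b hb a ha hba
  linarith [hn a ha]

/-- if some discrepancy is positive there is a numerical `(-1)`-curve -/
theorem Dat.exists_minus_one {S : Finset J} {I : J → J → ℤ} {k : J → ℤ} {l : T → J → ℕ}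
    {β : T → ℝ} {d : J → ℝ} (h : Dat S I k l β d) (hβ : ∀ t, 0 ≤ β t)
    (hd : ∃ a ∈ S, 0 < d a) : ∃ C ∈ S, k C = -1 ∧ I C C = -1 := by
  by_contra hno
  have hk : ∀ a ∈ S, 0 ≤ k a := by
    intro a ha
    by_contra hk
    have h1 := h.self_neg ha
    have h2 := h.adj a ha
    exact hno ⟨a, ha, by omega, by omega⟩
  obtain ⟨a, ha, hda⟩ := hd
  have := negativity h.off h.neg (x := d) (fun b hb => by
    rw [← h.eqn b hb]
    have h1 : (0 : ℝ) ≤ (k b : ℝ) := by exact_mod_cast hk b hb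
    have h2 : 0 ≤ ∑ t, β t * (l t b : ℝ) :=
      Finset.sum_nonneg fun t _ => mul_nonneg (hβ t) (Nat.cast_nonneg _)
    linarith) a ha
  linarith

/-- contracted intersection numbers -/
def cI (I : J → J → ℤ) (C : J) : J → J → ℤ := fun a b => I a b + I a C * I b C

/-- contracted canonical degrees -/
def ck (I : J → J → ℤ) (k : J → ℤ) (C : J) : J → ℤ := fun a => k a - I a C

/-- contracted degrees -/
def cl (I : J → J → ℤ) (l : T → J → ℕ) (C : J) : T → J → ℕ :=
  fun t a => l t a + l t C * (I a C).toNat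

theorem Dat.contract {S : Finset J} {I : J → J → ℤ} {k : J → ℤ} {l : T → J → ℕ}
    {β : T → ℝ} {d : J → ℝ} (h : Dat S I k l β d) {C : J} (hC : C ∈ S) (hk : k C = -1)
    (hI : I C C = -1) : Dat (S.erase C) (cI I C) (ck I k C) (cl I l C) β d := by
  have hoC : ∀ a ∈ S.erase C, 0 ≤ I a C := fun a ha =>
    h.off a (mem_of_mem_erase ha) C hC (ne_of_mem_erase ha)
  have hsum : ∀ (x : J → ℝ) (b : J), b ∈ S.erase C →
      ∑ a ∈ S.erase C, x a * (cI I C a b : ℝ)
        = ∑ a ∈ S, x a * (I a b : ℝ) + (I b C : ℝ) * ∑ a ∈ S, x a * (I a C : ℝ) := by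
    intro x b hb
    have e1 : ∑ a ∈ S.erase C, x a * (cI I C a b : ℝ) = ∑ a ∈ S, x a * (cI I C a b : ℝ) := by
      refine Finset.sum_erase _ ?_
      have : cI I C C b = 0 := by
        simp only [cI, hI]
        rw [h.symm C hC b (mem_of_mem_erase hb)]; ring
      rw [this]; simp
    rw [e1, Finset.mul_sum, ← Finset.sum_add_distrib]
    refine Finset.sum_congr rfl fun a _ => ?_
    simp only [cI]; push_cast; ring
  refine ⟨fun a ha b hb => ?_, fun a ha b hb hab => ?_, ?_, fun a ha => ?_, fun a ha => ?_⟩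
  · simp only [cI]
    rw [h.symm a (mem_of_mem_erase ha) b (mem_of_mem_erase hb)]; ring
  · simp only [cI]
    have := h.off a (mem_of_mem_erase ha) b (mem_of_mem_erase hb) hab
    have := mul_nonneg (hoC a ha) (hoC b hb)
    omega
  · obtain ⟨c, hc, hn⟩ := h.neg
    refine ⟨c, fun a ha => hc a (mem_of_mem_erase ha), fun b hb => ?_⟩
    rw [hsum c b hb]
    have h1 := hn b (mem_of_mem_erase hb)
    have h2 := hn C hC
    have h3 : (0 : ℝ) ≤ (I b C : ℝ) := by exact_mod_cast hoC b hb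
    nlinarith
  · simp only [cI, ck]
    have h1 := h.adj a (mem_of_mem_erase ha)
    have h2 := hoC a ha
    have h3 : 0 ≤ I a C * (I a C - 1) := by
      rcases eq_or_lt_of_le h2 with h4 | h4
      · rw [← h4]; simp
      · exact mul_nonneg h2 (by omega)
    nlinarith
  · rw [hsum d a ha, ← h.eqn a (mem_of_mem_erase ha), ← h.eqn C hC, hk]
    have h3 : (((I a C).toNat : ℕ) : ℝ) = (I a C : ℝ) := by
      have : (((I a C).toNat : ℕ) : ℤ) = I a C := Int.toNat_of_nonneg (hoC a ha)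
      exact_mod_cast this
    have e2 : ∑ t, β t * (cl I l C t a : ℝ)
        = ∑ t, β t * (l t a : ℝ) + (I a C : ℝ) * ∑ t, β t * (l t C : ℝ) := by
      rw [Finset.mul_sum, ← Finset.sum_add_distrib]
      refine Finset.sum_congr rfl fun t _ => ?_
      simp only [cl]; push_cast; rw [h3]; ring
    rw [e2]
    simp only [ck]; push_cast; ring

theorem Conn.contract {S : Finset J} {I : J → J → ℤ} (h : Conn S I)
    (symm : ∀ a ∈ S, ∀ b ∈ S, I a b = I b a)
    (off : ∀ a ∈ S, ∀ b ∈ S, a ≠ b → 0 ≤ I a b) {C : J} (hC : C ∈ S) :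
    Conn (S.erase C) (cI I C) := by
  intro A hA hne hAS
  have hoC : ∀ a ∈ S.erase C, 0 ≤ I a C := fun a ha =>
    off a (mem_of_mem_erase ha) C hC (ne_of_mem_erase ha)
  have hCA : C ∉ A := fun hc => (ne_of_mem_erase (hA hc)) rfl
  have hAS' : A ⊆ S := hA.trans (erase_subset _ _)
  have hge : ∀ a ∈ S.erase C, ∀ b ∈ S.erase C, I a b ≤ cI I C a b := by
    intro a ha b hb
    have := mul_nonneg (hoC a ha) (hoC b hb)
    simp only [cI]; omega
  obtain ⟨a, ha, b, hb, hbA, hab⟩ := h A hAS' hne (fun e => hCA (e ▸ hC))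
  by_cases hbC : b = C
  · subst hbC
    have hne2 : insert b A ≠ S := by
      intro e
      apply hAS
      rw [← e, erase_insert hCA]
    obtain ⟨a', ha', b', hb', hb'A, hab'⟩ :=
      h (insert b A) (insert_subset hC hAS') (insert_nonempty _ _) hne2
    have hb'C : b' ≠ b := fun e => hb'A (e ▸ mem_insert_self _ _)
    have hb'e : b' ∈ S.erase b := mem_erase.mpr ⟨hb'C, hb'⟩
    have hb'A' : b' ∉ A := fun e => hb'A (mem_insert_of_mem e)
    rcases mem_insert.mp ha' with e | ha'A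
    · subst e
      refine ⟨a, ha, b', hb'e, hb'A', ?_⟩
      have h1 : 0 ≤ I a b' := off a (hAS' ha) b' hb' (fun e => hb'A' (e ▸ ha))
      have h2 : 0 < I b' a' := by rw [symm b' hb' a' hC]; exact hab'
      have := mul_pos hab h2
      simp only [cI]; omega
    · exact ⟨a', ha'A, b', hb'e, hb'A', lt_of_lt_of_le hab' (hge a' (hA ha'A) b' hb'e)⟩
  · have hbe : b ∈ S.erase C := mem_erase.mpr ⟨hbC, hb⟩
    exact ⟨a, ha, b, hbe, hbA, lt_of_lt_of_le hab (hge a (hA ha) b hbe)⟩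

/-- in a connected graph with at least two vertices, `C` has a neighbour -/
theorem Conn.one_le_sum {S : Finset J} {I : J → J → ℤ} (h : Conn S I)
    (symm : ∀ a ∈ S, ∀ b ∈ S, I a b = I b a) {C : J} (hC : C ∈ S)
    (hne : (S.erase C).Nonempty) : 1 ≤ ∑ a ∈ S.erase C, (I a C).toNat := by
  obtain ⟨x, hx⟩ := hne
  obtain ⟨a, ha, b, hb, hbA, hab⟩ := h {C} (singleton_subset_iff.mpr hC) (singleton_nonempty _)
    (fun e => by
      have : x ∈ ({C} : Finset J) := e ▸ mem_of_mem_erase hx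
      exact ne_of_mem_erase hx (mem_singleton.mp this))
  rw [mem_singleton] at ha hbA
  subst ha
  have hbe : b ∈ S.erase a := mem_erase.mpr ⟨hbA, hb⟩
  have h1 : 1 ≤ (I b a).toNat := by
    rw [symm b hb a hC]; omega
  exact h1.trans (Finset.single_le_sum (f := fun x => (I x a).toNat) (fun _ _ => Nat.zero_le _) hbe)

omit [Fintype T] in
theorem sum_cl {S : Finset J} {I : J → J → ℤ} (l : T → J → ℕ) {C : J} (t : T) :
    ∑ a ∈ S.erase C, cl I l C t a
      = ∑ a ∈ S.erase C, l t a + l t C * ∑ a ∈ S.erase C, (I a C).toNat := by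
  rw [Finset.mul_sum, ← Finset.sum_add_distrib]; rfl

/-- **TERM (i)**: the last contracted curve -/
theorem last {β : T → ℝ} (hβ : ∀ t, 0 ≤ β t) {d : J → ℝ} (n : ℕ) :
    ∀ (S : Finset J) (I : J → J → ℤ) (k : J → ℤ) (l : T → J → ℕ), S.card = n + 1 →
      Dat S I k l β d → Conn S I → (∀ a ∈ S, 0 < d a) →
      ∃ j ∈ S, ∃ m : T → ℕ, d j = 1 - ∑ t, β t * (m t : ℝ) ∧ ∀ t, ∑ a ∈ S, l t a ≤ m t := by
  induction n with
  | zero =>
    intro S I k l hS h _ hd
    obtain ⟨C, rfl⟩ := card_eq_one.mp hS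
    obtain ⟨C', hC', hk, hI⟩ := h.exists_minus_one hβ ⟨C, mem_singleton_self _,
      hd C (mem_singleton_self _)⟩
    rw [mem_singleton] at hC'
    subst hC'
    refine ⟨C', mem_singleton_self _, fun t => l t C', ?_, fun t => by simp⟩
    have := h.eqn C' (mem_singleton_self _)
    rw [sum_singleton, hk, hI] at this
    push_cast at this
    linarith
  | succ n ih =>
    intro S I k l hS h hc hd
    have hSne : S.Nonempty := card_pos.mp (by omega)
    obtain ⟨a0, ha0⟩ := hSne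
    obtain ⟨C, hC, hk, hI⟩ := h.exists_minus_one hβ ⟨a0, ha0, hd a0 ha0⟩
    have hcard : (S.erase C).card = n + 1 := by rw [card_erase_of_mem hC]; omega
    obtain ⟨j, hj, m, hm, hl⟩ := ih (S.erase C) _ _ _ hcard (h.contract hC hk hI)
      (hc.contract h.symm h.off hC) (fun a ha => hd a (mem_of_mem_erase ha))
    refine ⟨j, mem_of_mem_erase hj, m, hm, fun t => le_trans ?_ (hl t)⟩
    have h1 := hc.one_le_sum h.symm hC (card_pos.mp (by omega))
    rw [sum_cl, ← add_sum_erase S (l t) hC]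
    have := Nat.mul_le_mul_left (l t C) h1
    omega

theorem last' {β : T → ℝ} (hβ : ∀ t, 0 ≤ β t) {d : J → ℝ} {S : Finset J} {I : J → J → ℤ}
    {k : J → ℤ} {l : T → J → ℕ} (h : Dat S I k l β d) (hc : Conn S I) (hne : S.Nonempty)
    (hd : ∀ a ∈ S, 0 < d a) :
    ∃ j ∈ S, ∃ m : T → ℕ, d j = 1 - ∑ t, β t * (m t : ℝ) ∧ ∀ t, ∑ a ∈ S, l t a ≤ m t :=
  last hβ (S.card - 1) S I k l (by have := card_pos.mpr hne; omega) h hc hd

/-- the total multiplicity is less than one -/
theorem sum_lt_one {β : T → ℝ} (hβ : ∀ t, 0 ≤ β t) {d : J → ℝ} {S : Finset J} {I : J → J → ℤ}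
    {k : J → ℤ} {l : T → J → ℕ} (h : Dat S I k l β d) (hc : Conn S I) (hne : S.Nonempty)
    (hd : ∀ a ∈ S, 0 < d a) : ∑ t, β t * ((∑ a ∈ S, l t a : ℕ) : ℝ) < 1 := by
  obtain ⟨j, hj, m, hm, hl⟩ := last' hβ h hc hne hd
  have h1 : ∑ t, β t * ((∑ a ∈ S, l t a : ℕ) : ℝ) ≤ ∑ t, β t * (m t : ℝ) :=
    Finset.sum_le_sum fun t _ => mul_le_mul_of_nonneg_left (by exact_mod_cast hl t) (hβ t)
  linarith [hd j hj]

theorem sum_le_one_of_half {β : T → ℝ} (hβ : ∀ t, 0 ≤ β t) {d : J → ℝ} {S : Finset J}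
    {I : J → J → ℤ} {k : J → ℤ} {l : T → J → ℕ} (h : Dat S I k l β d) (hc : Conn S I)
    (hne : S.Nonempty) (hd : ∀ a ∈ S, 0 < d a) {t0 : T} (hb : 1 / 2 ≤ β t0) :
    ∑ a ∈ S, l t0 a ≤ 1 := by
  have h1 := sum_lt_one hβ h hc hne hd
  have h2 : β t0 * ((∑ a ∈ S, l t0 a : ℕ) : ℝ) ≤ ∑ t, β t * ((∑ a ∈ S, l t a : ℕ) : ℝ) :=
    Finset.single_le_sum (f := fun t => β t * ((∑ a ∈ S, l t a : ℕ) : ℝ))
      (fun t _ => mul_nonneg (hβ t) (Nat.cast_nonneg _)) (mem_univ t0)
  by_contra hlt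
  have h3 : (2 : ℝ) ≤ ((∑ a ∈ S, l t0 a : ℕ) : ℝ) := by
    have : 2 ≤ ∑ a ∈ S, l t0 a := by omega
    exact_mod_cast this
  nlinarith

/-- **TERM (ii)**: the chain along a branch of coefficient at least `1/2` -/
theorem chain {β : T → ℝ} (hβ : ∀ t, 0 ≤ β t) {d : J → ℝ} {t0 : T} (hb : 1 / 2 ≤ β t0) (n : ℕ) :
    ∀ (S : Finset J) (I : J → J → ℤ) (k : J → ℤ) (l : T → J → ℕ), S.card = n + 1 →
      Dat S I k l β d → Conn S I → (∀ a ∈ S, 0 < d a) → ∀ j ∈ S, 1 ≤ l t0 j →
      ∃ (q : ℕ) (c : ℕ → J), c q = j ∧ (∀ i ≤ q, c i ∈ S ∧ d (c i) ≤ (i + 1 : ℝ) * (1 - β t0)) ∧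
        ∀ i < q, d (c i) < d (c (i + 1)) := by
  induction n with
  | zero =>
    intro S I k l hS h hc hd j hj hl
    obtain ⟨C, rfl⟩ := card_eq_one.mp hS
    rw [mem_singleton] at hj
    subst hj
    obtain ⟨j', hj', m, hm, hlm⟩ := last' hβ h hc (singleton_nonempty _) hd
    rw [mem_singleton] at hj'
    subst hj'
    refine ⟨0, fun _ => j', rfl, fun i hi => ⟨mem_singleton_self _, ?_⟩, fun i hi => by omega⟩
    have hi0 : i = 0 := by omega
    subst hi0
    have h2 : β t0 * (m t0 : ℝ) ≤ ∑ t, β t * (m t : ℝ) :=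
      Finset.single_le_sum (f := fun t => β t * (m t : ℝ))
        (fun t _ => mul_nonneg (hβ t) (Nat.cast_nonneg _)) (mem_univ t0)
    have h3 : (1 : ℝ) ≤ (m t0 : ℝ) := by
      have := hlm t0
      rw [sum_singleton] at this
      exact_mod_cast hl.trans this
    have := hβ t0
    push_cast
    nlinarith
  | succ n ih =>
    intro S I k l hS h hc hd j hj hl
    obtain ⟨C, hC, hk, hI⟩ := h.exists_minus_one hβ ⟨j, hj, hd j hj⟩
    have hcard : (S.erase C).card = n + 1 := by rw [card_erase_of_mem hC]; omega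
    have hne' : (S.erase C).Nonempty := card_pos.mp (by omega)
    have h' := h.contract hC hk hI
    have hc' := hc.contract h.symm h.off hC
    have hd' : ∀ a ∈ S.erase C, 0 < d a := fun a ha => hd a (mem_of_mem_erase ha)
    by_cases hjC : j = C
    · subst hjC
      have h1 := hc.one_le_sum h.symm hC hne'
      have h2 := sum_le_one_of_half hβ h' hc' hne' hd' hb
      rw [sum_cl] at h2
      have h3 : ∑ a ∈ S.erase j, (I a j).toNat = 1 := by
        have := Nat.mul_le_mul_right (∑ a ∈ S.erase j, (I a j).toNat) hl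
        omega
      obtain ⟨j', hj', hj1⟩ : ∃ j' ∈ S.erase j, (I j' j).toNat ≠ 0 := by
        by_contra hno
        push Not at hno
        rw [Finset.sum_eq_zero hno] at h3
        omega
      have h4 := add_sum_erase (S.erase j) (fun a => (I a j).toNat) hj'
      have hI1 : I j' j = 1 := by omega
      have hI0 : ∀ a ∈ (S.erase j).erase j', I a j = 0 := by
        intro a ha
        have h5 : ∑ a ∈ (S.erase j).erase j', (I a j).toNat = 0 := by omega
        have h6 := Finset.sum_eq_zero_iff.mp h5 a ha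
        have h7 := h.off a (mem_of_mem_erase (mem_of_mem_erase ha)) j hj
          (ne_of_mem_erase (mem_of_mem_erase ha))
        omega
      have hl' : 1 ≤ cl I l j t0 j' := by
        simp only [cl, hI1]
        have : (1 : ℤ).toNat = 1 := rfl
        rw [this]; omega
      obtain ⟨q, c, hcq, hcm, hcs⟩ := ih (S.erase j) _ _ _ hcard h' hc' hd' j' hj' hl'
      have he := h.eqn j hj
      rw [← add_sum_erase S _ hj, ← add_sum_erase (S.erase j) _ hj', hk, hI, hI1,
        Finset.sum_eq_zero (s := (S.erase j).erase j')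
          (fun a ha => by rw [hI0 a ha]; simp)] at he
      push_cast at he
      have h8 : β t0 ≤ ∑ t, β t * (l t j : ℝ) := by
        have h9 : β t0 * (l t0 j : ℝ) ≤ ∑ t, β t * (l t j : ℝ) :=
          Finset.single_le_sum (f := fun t => β t * (l t j : ℝ))
            (fun t _ => mul_nonneg (hβ t) (Nat.cast_nonneg _)) (mem_univ t0)
        have h10 : (1 : ℝ) ≤ (l t0 j : ℝ) := by exact_mod_cast hl
        have := hβ t0
        nlinarith
      have h11 : ∑ t, β t * (l t j : ℝ) < 1 := by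
        refine lt_of_le_of_lt (Finset.sum_le_sum fun t _ => ?_) (sum_lt_one hβ h hc ⟨j, hj⟩ hd)
        refine mul_le_mul_of_nonneg_left ?_ (hβ t)
        exact_mod_cast Finset.single_le_sum (f := l t) (fun _ _ => Nat.zero_le _) hj
      refine ⟨q + 1, fun i => if i ≤ q then c i else j, by simp, fun i hi => ?_, fun i hi => ?_⟩
      · by_cases hiq : i ≤ q
        · simp only [if_pos hiq]
          exact ⟨mem_of_mem_erase (hcm i hiq).1, (hcm i hiq).2⟩
        · simp only [if_neg hiq]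
          have hi' : i = q + 1 := by omega
          subst hi'
          have := (hcm q le_rfl).2
          rw [hcq] at this
          refine ⟨hj, ?_⟩
          push_cast
          nlinarith
      · have hiq : i ≤ q := by omega
        simp only [if_pos hiq]
        by_cases hiq' : i + 1 ≤ q
        · simp only [if_pos hiq']
          exact hcs i (by omega)
        · simp only [if_neg hiq']
          have hi' : i = q := by omega
          subst hi'
          rw [hcq]
          linarith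
    · have hje : j ∈ S.erase C := mem_erase.mpr ⟨hjC, hj⟩
      have hl' : 1 ≤ cl I l C t0 j := by simp only [cl]; omega
      obtain ⟨q, c, hcq, hcm, hcs⟩ := ih (S.erase C) _ _ _ hcard h' hc' hd' j hje hl'
      exact ⟨q, c, hcq, fun i hi => ⟨mem_of_mem_erase (hcm i hi).1, (hcm i hi).2⟩, hcs⟩

theorem chain' {β : T → ℝ} (hβ : ∀ t, 0 ≤ β t) {d : J → ℝ} {t0 : T} (hb : 1 / 2 ≤ β t0)
    {S : Finset J} {I : J → J → ℤ} {k : J → ℤ} {l : T → J → ℕ} (h : Dat S I k l β d)
    (hc : Conn S I) (hd : ∀ a ∈ S, 0 < d a) {j : J} (hj : j ∈ S) (hl : 1 ≤ l t0 j) :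
    ∃ (q : ℕ) (c : ℕ → J), c q = j ∧ (∀ i ≤ q, c i ∈ S ∧ d (c i) ≤ (i + 1 : ℝ) * (1 - β t0)) ∧
      ∀ i < q, d (c i) < d (c (i + 1)) :=
  chain hβ hb (S.card - 1) S I k l (by have := card_pos.mpr ⟨j, hj⟩; omega) h hc hd j hj hl

/-- the number of echoes alive at level `α` -/
noncomputable def wt (α b e : ℝ) : ℕ := Set.ncard {k : ℕ | 1 ≤ k ∧ e + (k : ℝ) * (1 - b) < α}

theorem wt_finite {α b e : ℝ} (hb : b < 1) :
    {k : ℕ | 1 ≤ k ∧ e + (k : ℝ) * (1 - b) < α}.Finite := by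
  obtain ⟨N, hN⟩ := exists_nat_gt ((α - e) / (1 - b))
  refine (Set.finite_lt_nat N).subset fun k hk => ?_
  have h1 : (k : ℝ) < (α - e) / (1 - b) := by
    rw [lt_div_iff₀ (by linarith)]; linarith [hk.2]
  exact_mod_cast h1.trans hN

theorem le_wt_iff {α b e : ℝ} (hb : b < 1) {n : ℕ} (hn : 1 ≤ n) :
    n ≤ wt α b e ↔ e + (n : ℝ) * (1 - b) < α := by
  constructor
  · intro h
    by_contra hlt
    push Not at hlt
    have hsub : {k : ℕ | 1 ≤ k ∧ e + (k : ℝ) * (1 - b) < α} ⊆ ↑(Finset.Ico 1 n) := by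
      intro k hk
      simp only [coe_Ico, Set.mem_Ico]
      refine ⟨hk.1, ?_⟩
      by_contra hkn
      have : (n : ℝ) ≤ k := by exact_mod_cast not_lt.mp hkn
      nlinarith [hk.2]
    have := Set.ncard_le_ncard hsub (Finset.finite_toSet _)
    rw [Set.ncard_coe_finset, Nat.card_Ico] at this
    unfold wt at h
    omega
  · intro h
    have hsub : (↑(Finset.Icc 1 n) : Set ℕ) ⊆ {k : ℕ | 1 ≤ k ∧ e + (k : ℝ) * (1 - b) < α} := by
      intro k hk
      simp only [coe_Icc, Set.mem_Icc] at hk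
      refine ⟨hk.1, ?_⟩
      have : (k : ℝ) ≤ n := by exact_mod_cast hk.2
      nlinarith
    have := Set.ncard_le_ncard hsub (wt_finite hb)
    rw [Set.ncard_coe_finset, Nat.card_Icc] at this
    unfold wt
    omega

/-- **TERM (iii)**: along a branch of coefficient at least `1/2` the alive values make up for the
missing echoes -/
theorem wt_le {β : T → ℝ} (hβ : ∀ t, 0 ≤ β t) {d : J → ℝ} {t0 : T} (hb : 1 / 2 ≤ β t0)
    (hb1 : β t0 < 1) {S : Finset J} {I : J → J → ℤ} {k : J → ℤ} {l : T → J → ℕ}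
    (h : Dat S I k l β d) (hc : Conn S I) (hd : ∀ a ∈ S, 0 < d a) {j : J} (hj : j ∈ S)
    (hl : 1 ≤ l t0 j) (α : ℝ) :
    wt α (β t0) 0 ≤ ((S.filter fun a => d a < α).image d).card + wt α (β t0) (d j) := by
  classical
  obtain ⟨q, c, hcq, hcm, hcs⟩ := chain' hβ hb h hc hd hj hl
  set w := wt α (β t0) 0 with hw
  rcases Nat.eq_zero_or_pos w with h0 | hpos
  · omega
  have hwα : 0 + (w : ℝ) * (1 - β t0) < α := (le_wt_iff hb1 hpos).mp le_rfl
  have hmono : ∀ i i', i < i' → i' ≤ q → d (c i) < d (c i') := by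
    intro i i' hii' hq
    induction i' with
    | zero => omega
    | succ m ihm =>
      rcases Nat.lt_succ_iff_lt_or_eq.mp hii' with h1 | h1
      · exact (ihm h1 (by omega)).trans (hcs m (by omega))
      · subst h1; exact hcs i (by omega)
  have hA : min (q + 1) w ≤ ((S.filter fun a => d a < α).image d).card := by
    rw [← card_range (min (q + 1) w)]
    refine card_le_card_of_injOn (fun i => d (c i)) (fun i hi => ?_) (fun i hi i' hi' e => ?_)
    · have hi' : i < min (q + 1) w := by simpa using hi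
      have hiq : i ≤ q := by omega
      have hiw : (i : ℝ) + 1 ≤ w := by
        have : i + 1 ≤ w := by omega
        exact_mod_cast this
      simp only [coe_image, coe_filter]
      refine ⟨c i, ⟨(hcm i hiq).1, ?_⟩, rfl⟩
      have := (hcm i hiq).2
      nlinarith
    · have h1 : i < min (q + 1) w := by simpa using hi
      have h2 : i' < min (q + 1) w := by simpa using hi'
      by_contra hne
      rcases lt_or_gt_of_ne hne with h3 | h3
      · exact (hmono i i' h3 (by omega)).ne e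
      · exact (hmono i' i h3 (by omega)).ne e.symm
  by_cases hqw : w ≤ q + 1
  · omega
  · have h1 : w - (q + 1) ≤ wt α (β t0) (d j) := by
      rw [le_wt_iff hb1 (by omega)]
      have h2 := (hcm q le_rfl).2
      rw [hcq] at h2
      have h3 : ((w - (q + 1) : ℕ) : ℝ) = (w : ℝ) - (q + 1) := by
        rw [Nat.cast_sub (by omega)]; push_cast; ring
      rw [h3]
      nlinarith
    omega

/-- **TERM (iv)**, the inequality of section 4. `Γ` is a nonempty finite family of branches, `γ`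
lies on the component `t γ` and meets the curve `j γ`; all have `w ≥ 1`. -/
theorem count {β : T → ℝ} (hβ : ∀ t, 0 ≤ β t) {d : J → ℝ} {S : Finset J} {I : J → J → ℤ}
    {k : J → ℤ} {l : T → J → ℕ} (h : Dat S I k l β d) (hc : Conn S I) (hd : ∀ a ∈ S, 0 < d a)
    {G : Type*} [DecidableEq T] (Γ : Finset G) (hΓ : Γ.Nonempty) (t : G → T) (j : G → J)
    (hj : ∀ γ ∈ Γ, j γ ∈ S) (hl : ∀ γ ∈ Γ, 1 ≤ l (t γ) (j γ))
    (hn : ∀ s, (Γ.filter fun γ => t γ = s).card ≤ ∑ a ∈ S, l s a)
    {α : ℝ} (hα : α ≤ 1) (hw : ∀ γ ∈ Γ, 1 - β (t γ) < α) :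
    1 + ∑ γ ∈ Γ, wt α (β (t γ)) 0
      ≤ ((S.filter fun a => d a < α).image d).card + ∑ γ ∈ Γ, wt α (β (t γ)) (d (j γ))
        + Γ.card := by
  classical
  obtain ⟨γ1, hγ1⟩ := hΓ
  have hS : S.Nonempty := ⟨_, hj γ1 hγ1⟩
  have hlt := sum_lt_one hβ h hc hS hd
  have hone : ∀ γ ∈ Γ, (1 : ℝ) ≤ ((∑ a ∈ S, l (t γ) a : ℕ) : ℝ) := by
    intro γ hγ
    exact_mod_cast (hl γ hγ).trans
      (Finset.single_le_sum (f := l (t γ)) (fun _ _ => Nat.zero_le _) (hj γ hγ))
  have hnn : ∀ s, 0 ≤ β s * ((∑ a ∈ S, l s a : ℕ) : ℝ) :=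
    fun s => mul_nonneg (hβ s) (Nat.cast_nonneg _)
  have hb1 : ∀ γ ∈ Γ, β (t γ) < 1 := by
    intro γ hγ
    have h2 := Finset.single_le_sum (f := fun s => β s * ((∑ a ∈ S, l s a : ℕ) : ℝ))
      (fun s _ => hnn s) (mem_univ (t γ))
    have := hone γ hγ
    have := hβ (t γ)
    nlinarith
  by_cases hall : ∀ γ ∈ Γ, wt α (β (t γ)) 0 ≤ 1
  · have h1 : ∑ γ ∈ Γ, wt α (β (t γ)) 0 ≤ Γ.card := by
      rw [card_eq_sum_ones]; exact Finset.sum_le_sum hall
    obtain ⟨j1, hj1, m, hm, hlm⟩ := last' hβ h hc hS hd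
    have h2 : d j1 < α := by
      have h3 := Finset.single_le_sum (f := fun s => β s * (m s : ℝ))
        (fun s _ => mul_nonneg (hβ s) (Nat.cast_nonneg _)) (mem_univ (t γ1))
      have h4 : ((∑ a ∈ S, l (t γ1) a : ℕ) : ℝ) ≤ (m (t γ1) : ℝ) := by exact_mod_cast hlm _
      have := hone γ1 hγ1
      have := hβ (t γ1)
      have := hw γ1 hγ1
      nlinarith
    have h3 : 1 ≤ ((S.filter fun a => d a < α).image d).card :=
      card_pos.mpr ⟨d j1, mem_image_of_mem d (mem_filter.mpr ⟨hj1, h2⟩)⟩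
    omega
  · push Not at hall
    obtain ⟨γ0, hγ0, h0⟩ := hall
    have hhalf : ∀ γ ∈ Γ, 2 ≤ wt α (β (t γ)) 0 → 1 / 2 < β (t γ) := by
      intro γ hγ h2
      have := (le_wt_iff (hb1 γ hγ) (by norm_num)).mp h2
      push_cast at this
      linarith
    have hb0 := hhalf γ0 hγ0 h0
    have hoth : ∀ γ ∈ Γ.erase γ0, wt α (β (t γ)) 0 ≤ 1 := by
      intro γ hγ
      have hγΓ := mem_of_mem_erase hγ
      by_contra h2
      have hb := hhalf γ hγΓ (by omega)
      by_cases htt : t γ = t γ0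
      · have h3 := sum_le_one_of_half hβ h hc hS hd hb0.le
        have h4 : ({γ, γ0} : Finset G) ⊆ Γ.filter fun γ' => t γ' = t γ0 := by
          intro x hx
          rcases mem_insert.mp hx with e | e
          · subst e; exact mem_filter.mpr ⟨hγΓ, htt⟩
          · rw [mem_singleton] at e; subst e; exact mem_filter.mpr ⟨hγ0, rfl⟩
        have h5 := card_le_card h4
        rw [card_pair (ne_of_mem_erase hγ)] at h5
        have := hn (t γ0)
        omega
      · have h3 : ∑ s ∈ ({t γ, t γ0} : Finset T), β s * ((∑ a ∈ S, l s a : ℕ) : ℝ)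
            ≤ ∑ s, β s * ((∑ a ∈ S, l s a : ℕ) : ℝ) :=
          Finset.sum_le_sum_of_subset_of_nonneg (subset_univ _) (fun s _ _ => hnn s)
        rw [sum_pair htt] at h3
        have := hone γ hγΓ
        have := hone γ0 hγ0
        nlinarith
    have h1 : ∑ γ ∈ Γ.erase γ0, wt α (β (t γ)) 0 ≤ (Γ.erase γ0).card := by
      rw [card_eq_sum_ones]; exact Finset.sum_le_sum hoth
    have h2 := wt_le hβ hb0.le (hb1 γ0 hγ0) h hc hd (hj γ0 hγ0) (hl γ0 hγ0) α
    have h3 := add_sum_erase Γ (fun γ => wt α (β (t γ)) 0) hγ0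
    have h4 := add_sum_erase Γ (fun γ => wt α (β (t γ)) (d (j γ))) hγ0
    have h5 := card_erase_of_mem hγ0
    have h6 := card_pos.mpr ⟨γ0, hγ0⟩
    omega

/-- the values of the last curve lie in a finite set depending only on `β` -/
theorem finite_values {β : T → ℝ} (hβ : ∀ t, 0 ≤ β t) (r : ℝ) :
    {x : ℝ | r < x ∧ ∃ m : T → ℕ, x = 1 - ∑ t, β t * (m t : ℝ)}.Finite := by
  classical
  have hN : ∀ t, ∃ N : ℕ, β t ≠ 0 → ∀ n : ℕ, β t * (n : ℝ) < 1 - r → n < N := by
    intro t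
    obtain ⟨N, hN⟩ := exists_nat_gt ((1 - r) / β t)
    refine ⟨N, fun h0 n hn => ?_⟩
    have hp : 0 < β t := lt_of_le_of_ne (hβ t) (Ne.symm h0)
    have : (n : ℝ) < (1 - r) / β t := by rw [lt_div_iff₀ hp]; linarith
    exact_mod_cast this.trans hN
  choose N hN using hN
  have hfin : (Set.pi Set.univ fun t => Set.Iic (N t)).Finite :=
    Set.Finite.pi fun t => Set.finite_Iic _
  refine (hfin.image fun m : T → ℕ => 1 - ∑ t, β t * (m t : ℝ)).subset ?_
  rintro x ⟨hx, m, rfl⟩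
  refine ⟨fun t => if β t = 0 then 0 else m t, fun t _ => ?_, ?_⟩
  · by_cases h0 : β t = 0
    · simp [h0]
    · simp only [if_neg h0, Set.mem_Iic]
      refine (hN t h0 (m t) ?_).le
      have := Finset.single_le_sum (f := fun s => β s * (m s : ℝ))
        (fun s _ => mul_nonneg (hβ s) (Nat.cast_nonneg _)) (mem_univ t)
      linarith
  · simp only
    congr 1
    refine Finset.sum_congr rfl fun t _ => ?_
    by_cases h0 : β t = 0
    · simp [h0]
    · simp [h0]

end P277Z.Num
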