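import Mathlib.Algebra.BigOperators.Ring.Finset
import Mathlib.Algebra.Order.BigOperators.Ring.Finset
import Mathlib.Algebra.Order.Archimedean.Basic
import Mathlib.Algebra.Order.Archimedean.Real.Basic
import Mathlib.Data.Int.LeastGreatest
import Mathlib.Data.Set.Finite.Lattice
import Mathlib.Data.Fintype.Pi
import Mathlib.Data.Finite.Prod
import Mathlib.Order.Interval.Finset.Nat
import Mathlib.Algebra.Group.Submonoid.BigOperators
import Mathlib.Algebra.Group.Submonoid.Membership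
import Mathlib.Tactic.Linarith
import Mathlib.Tactic.Ring
import Mathlib.Tactic.FieldSimp
import Mathlib.Tactic.Positivity

/-!
# P277Z: thresholds from the intersection numbers of the compact curves on a slice
-/

open Finset

namespace P277Z.Num

variable {J : Type} [DecidableEq J]

/-- negativity lemma -/
theorem thr_neg (s : Finset J) (i : J → J → ℤ) (c x : J → ℝ)
    (off : ∀ a ∈ s, ∀ b ∈ s, a ≠ b → 0 ≤ i a b) (hc : ∀ a ∈ s, 0 < c a)
    (neg : ∀ b ∈ s, ∑ a ∈ s, c a * i a b < 0) (hx : ∀ b ∈ s, ∑ a ∈ s, x a * i a b ≤ 0) :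
    ∀ a ∈ s, 0 ≤ x a := by
  intro a₀ ha₀
  obtain ⟨b, hb, hmin⟩ := s.exists_min_image (fun a => x a / c a) ⟨a₀, ha₀⟩
  by_contra h0
  have h1 : x b / c b < 0 :=
    lt_of_le_of_lt (hmin a₀ ha₀) (div_neg_of_neg_of_pos (not_le.1 h0) (hc a₀ ha₀))
  set μ := x b / c b with hμ
  have h2 : ∀ a ∈ s, 0 ≤ (x a - μ * c a) * i a b := by
    intro a ha
    by_cases hab : a = b
    · subst hab
      have : x a - μ * c a = 0 := by rw [hμ]; field_simp [(hc a ha).ne']; ring
      rw [this, zero_mul]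
    · refine mul_nonneg ?_ (by exact_mod_cast off a ha b hb hab)
      have h3 := hmin a ha
      rw [le_div_iff₀ (hc a ha)] at h3
      linarith
  have h4 := sum_nonneg h2
  have h5 : ∑ a ∈ s, (x a - μ * c a) * i a b =
      ∑ a ∈ s, x a * i a b - μ * ∑ a ∈ s, c a * i a b := by
    rw [mul_sum, ← sum_sub_distrib]
    exact sum_congr rfl fun a _ => by ring
  have h6 := mul_pos_of_neg_of_neg h1 (neg b hb)
  linarith [hx b hb]

/-- the diagonal entries are negative -/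
theorem thr_diag (s : Finset J) (i : J → J → ℤ) (c : J → ℝ)
    (off : ∀ a ∈ s, ∀ b ∈ s, a ≠ b → 0 ≤ i a b) (hc : ∀ a ∈ s, 0 < c a)
    (neg : ∀ b ∈ s, ∑ a ∈ s, c a * i a b < 0) {b : J} (hb : b ∈ s) : i b b < 0 := by
  by_contra h
  refine absurd (neg b hb) (not_lt.2 (sum_nonneg fun a ha => mul_nonneg (hc a ha).le ?_))
  by_cases hab : a = b
  · subst hab; exact_mod_cast not_lt.1 h
  · exact_mod_cast off a ha b hb hab

/-- the cycle of Laufer -/
theorem laufer (s : Finset J) (hs : s.Nonempty) (i : J → J → ℤ) (k : J → ℤ) (c : J → ℝ)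
    (symm : ∀ a ∈ s, ∀ b ∈ s, i a b = i b a)
    (off : ∀ a ∈ s, ∀ b ∈ s, a ≠ b → 0 ≤ i a b) (hc : ∀ a ∈ s, 0 < c a)
    (neg : ∀ b ∈ s, ∑ a ∈ s, c a * i a b < 0) (gen : ∀ a ∈ s, -2 ≤ k a + i a a) :
    ∃ z : J → ℤ, (∀ a, 0 ≤ z a) ∧ (∃ a ∈ s, 0 < z a) ∧ (∀ b ∈ s, ∑ a ∈ s, z a * i a b ≤ 0) ∧
      -2 ≤ ∑ b ∈ s, z b * (k b + ∑ a ∈ s, z a * i a b) := by
  obtain ⟨a₀, ha₀⟩ := hs
  have hR : ∃ R : ℝ, 0 < R ∧ ∀ b ∈ s,
      R * (∑ a ∈ s, c a * i a b) + ∑ a ∈ s.erase b, (i a b : ℝ) ≤ 0 := by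
    refine ⟨1 + ∑ b ∈ s, |∑ a ∈ s.erase b, (i a b : ℝ)| / (-∑ a ∈ s, c a * i a b), ?_, ?_⟩
    · have : 0 ≤ ∑ b ∈ s, |∑ a ∈ s.erase b, (i a b : ℝ)| / (-∑ a ∈ s, c a * i a b) :=
        sum_nonneg fun b hb => div_nonneg (abs_nonneg _) (by linarith [neg b hb])
      linarith
    · intro b hb
      have h1 : |∑ a ∈ s.erase b, (i a b : ℝ)| / (-∑ a ∈ s, c a * i a b) ≤
          ∑ b ∈ s, |∑ a ∈ s.erase b, (i a b : ℝ)| / (-∑ a ∈ s, c a * i a b) :=
        single_le_sum (f := fun b => |∑ a ∈ s.erase b, (i a b : ℝ)| / (-∑ a ∈ s, c a * i a b))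
          (fun b hb => div_nonneg (abs_nonneg _) (by linarith [neg b hb])) hb
      have h2 : 0 < -∑ a ∈ s, c a * i a b := by linarith [neg b hb]
      rw [div_le_iff₀ h2] at h1
      nlinarith [le_abs_self (∑ a ∈ s.erase b, (i a b : ℝ))]
  obtain ⟨R, hR0, hR⟩ := hR
  let Ok : (J → ℤ) → Prop := fun z => (∀ a, 0 ≤ z a) ∧ 0 < z a₀ ∧
    (∀ a ∈ s, (z a : ℝ) < R * c a + 1) ∧ -2 ≤ ∑ b ∈ s, z b * (k b + ∑ a ∈ s, z a * i a b)
  have hex : ∃ v : ℤ, ∃ z, Ok z ∧ ∑ a ∈ s, z a = v := by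
    refine ⟨_, Pi.single a₀ 1, ⟨fun a => ?_, by simp, fun a ha => ?_, ?_⟩, rfl⟩
    · by_cases h : a = a₀
      · subst h; simp
      · simp [h]
    · have := mul_pos hR0 (hc a ha)
      by_cases h : a = a₀
      · subst h; simp; exact this
      · simp [h]; linarith
    · rw [sum_eq_single a₀ (fun b _ hb => by simp [hb]) (fun h => (h ha₀).elim),
        sum_eq_single a₀ (fun b _ hb => by simp [hb]) (fun h => (h ha₀).elim)]
      simpa using gen a₀ ha₀
  have hbd : ∃ M : ℤ, ∀ v : ℤ, (∃ z, Ok z ∧ ∑ a ∈ s, z a = v) → v ≤ M := by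
    refine ⟨⌈∑ a ∈ s, (R * c a + 1)⌉, ?_⟩
    rintro v ⟨z, hz, rfl⟩
    have h1 : ((∑ a ∈ s, z a : ℤ) : ℝ) ≤ ∑ a ∈ s, (R * c a + 1) := by
      push_cast
      exact sum_le_sum fun a ha => (hz.2.2.1 a ha).le
    exact_mod_cast h1.trans (Int.le_ceil _)
  obtain ⟨v, ⟨z, hz, rfl⟩, hmax⟩ := Int.exists_greatest_of_bdd hbd hex
  refine ⟨z, hz.1, ⟨a₀, ha₀, hz.2.1⟩, fun b hb => ?_, hz.2.2.2⟩
  by_contra hcon
  have hpos : 0 < ∑ a ∈ s, z a * i a b := not_le.1 hcon
  have hzb : (z b : ℝ) < R * c b := by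
    by_contra h1
    have h2 : (i b b : ℝ) < 0 := by exact_mod_cast thr_diag s i c off hc neg hb
    have h3 : ((∑ a ∈ s, z a * i a b : ℤ) : ℝ) ≤
        R * (∑ a ∈ s, c a * i a b) + ∑ a ∈ s.erase b, (i a b : ℝ) := by
      push_cast
      rw [← add_sum_erase s _ hb, ← add_sum_erase s (fun a => c a * (i a b : ℝ)) hb, mul_add,
        mul_sum, add_assoc, ← sum_add_distrib]
      refine add_le_add (by nlinarith [not_lt.1 h1]) (sum_le_sum fun a ha => ?_)
      have h4 : (0 : ℝ) ≤ i a b := by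
        exact_mod_cast off a (mem_of_mem_erase ha) b hb (ne_of_mem_erase ha)
      nlinarith [hz.2.2.1 a (mem_of_mem_erase ha)]
    have h5 : (0 : ℝ) < ((∑ a ∈ s, z a * i a b : ℤ) : ℝ) := by exact_mod_cast hpos
    linarith [hR b hb]
  have hsum : ∀ g : J → ℤ, ∑ a ∈ s, (z + Pi.single b 1 : J → ℤ) a * g a =
      ∑ a ∈ s, z a * g a + g b := by
    intro g
    simp only [Pi.add_apply, add_mul, sum_add_distrib]
    rw [sum_eq_single b (f := fun a => (Pi.single b 1 : J → ℤ) a * g a)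
      (fun a _ ha => by simp [ha]) (fun h => (h hb).elim)]
    simp
  have hok : Ok (z + Pi.single b 1) := by
    refine ⟨fun a => ?_, ?_, fun a ha => ?_, ?_⟩
    · by_cases h : a = b
      · subst h; simp; linarith [hz.1 a]
      · simp [h, hz.1 a]
    · by_cases h : a₀ = b
      · subst h; simp; linarith [hz.2.1]
      · simp [h, hz.2.1]
    · by_cases h : a = b
      · subst h; simp; exact hzb
      · simp [h, hz.2.2.1 a ha]
    · rw [hsum]
      simp only [hsum]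
      have h1 : ∑ a ∈ s, z a * (k a + (∑ a' ∈ s, z a' * i a' a + i b a)) =
          ∑ a ∈ s, z a * (k a + ∑ a' ∈ s, z a' * i a' a) + ∑ a ∈ s, z a * i a b := by
        rw [← sum_add_distrib]
        exact sum_congr rfl fun a ha => by rw [symm b hb a ha]; ring
      rw [h1]
      linarith [hz.2.2.2, gen b hb]
  have h6 := hmax _ ⟨_, hok, rfl⟩
  have h7 := hsum fun _ => 1
  simp only [mul_one] at h7
  linarith

theorem thr_aux (Λ : AddSubmonoid ℝ) (hΛ : ∀ x ∈ Λ, 0 ≤ x) (A c : J → ℝ) (m : ℕ) :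
    ∀ (s : Finset J) (i : J → J → ℤ) (k : J → ℤ) (l : J → ℝ), s.card = m + 1 →
      (∀ a ∈ s, ∀ b ∈ s, i a b = i b a) → (∀ a ∈ s, ∀ b ∈ s, a ≠ b → 0 ≤ i a b) →
      (∀ a ∈ s, 0 < c a) → (∀ b ∈ s, ∑ a ∈ s, c a * i a b < 0) → (∀ a ∈ s, -2 ≤ k a + i a a) →
      (∀ a ∈ s, l a ∈ Λ) → (∀ a ∈ s, k a + l a + ∑ b ∈ s, (1 - A b) * i b a = 0) →
      ∃ (n : J → ℕ) (N : ℤ) (lam : ℝ), (∀ a, n a ≠ 0 → a ∈ s) ∧ (∃ a, n a ≠ 0) ∧ N ≤ 2 ∧
        lam ∈ Λ ∧ ∑ a ∈ s, n a * A a = N - lam ∧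
        ((∃ a, n = Pi.single a 1) ∨ ∀ a, n a ≠ 0 → A a ≤ 1) := by
  induction m using Nat.strong_induction_on with
  | _ m ih =>
  intro s i k l hcard symm off hc neg gen hl heq
  have hs : s.Nonempty := card_pos.1 (by omega)
  by_cases hk : ∀ a ∈ s, 0 ≤ k a
  · have hA : ∀ a ∈ s, 0 ≤ 1 - A a := by
      refine thr_neg s i c (fun a => 1 - A a) off hc neg fun b hb => ?_
      have h1 : (0 : ℝ) ≤ k b := by exact_mod_cast hk b hb
      linarith [heq b hb, hΛ _ (hl b hb)]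
    obtain ⟨z, hz0, ⟨a₀, ha₀, hza⟩, hz, hg⟩ := laufer s hs i k c symm off hc neg gen
    set n : J → ℕ := fun b => if b ∈ s then (-∑ a ∈ s, z a * i a b).toNat else 0 with hn
    have hn1 : ∀ b ∈ s, (n b : ℤ) = -∑ a ∈ s, z a * i a b := by
      intro b hb
      simp only [hn, if_pos hb]
      exact Int.toNat_of_nonneg (by linarith [hz b hb])
    have hn2 : ∀ a, n a ≠ 0 → a ∈ s := by
      intro a ha
      by_contra h
      exact ha (by simp only [hn, if_neg h])
    refine ⟨n, ∑ b ∈ s, (n b : ℤ) - ∑ b ∈ s, z b * k b, ∑ b ∈ s, (z b).toNat • l b, hn2, ?_, ?_,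
      Λ.sum_mem fun b hb => Λ.nsmul_mem (hl b hb) _, ?_,
      Or.inr fun a ha => by linarith [hA a (hn2 a ha)]⟩
    · by_contra h0
      push Not at h0
      have h1 := thr_neg s i c (fun a => -(z a : ℝ)) off hc neg (fun b hb => ?_) a₀ ha₀
      · have h2 : (0 : ℝ) < z a₀ := by exact_mod_cast hza
        linarith
      · have h2 := hn1 b hb
        rw [h0 b] at h2
        have h3 : ((∑ a ∈ s, z a * i a b : ℤ) : ℝ) = 0 := by
          have : ∑ a ∈ s, z a * i a b = 0 := by simpa using h2.symm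
          rw [this]; simp
        push_cast at h3
        simp only [neg_mul, sum_neg_distrib, h3, neg_zero, le_refl]
    · have h1 : ∑ b ∈ s, (n b : ℤ) ≤ ∑ b ∈ s, z b * n b := by
        refine sum_le_sum fun b hb => ?_
        rcases (hz0 b).eq_or_lt with h | h
        · have h2 : 0 ≤ ∑ a ∈ s, z a * i a b := sum_nonneg fun a ha => by
            by_cases hab : a = b
            · subst hab; rw [← h, zero_mul]
            · exact mul_nonneg (hz0 a) (off a ha b hb hab)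
          rw [← h, zero_mul, hn1 b hb]
          linarith
        · have h2 : (0 : ℤ) ≤ n b := Int.natCast_nonneg _
          nlinarith
      have h2 : ∑ b ∈ s, z b * (k b + ∑ a ∈ s, z a * i a b) =
          ∑ b ∈ s, z b * k b - ∑ b ∈ s, z b * n b := by
        rw [← sum_sub_distrib]
        exact sum_congr rfl fun b hb => by rw [hn1 b hb]; ring
      linarith
    · have h1 : ∑ a ∈ s, (z a : ℝ) * (k a + l a + ∑ b ∈ s, (1 - A b) * i b a) = 0 :=
        sum_eq_zero fun a ha => by rw [heq a ha, mul_zero]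
      have h2 : ∑ a ∈ s, (z a : ℝ) * ∑ b ∈ s, (1 - A b) * i b a =
          -∑ b ∈ s, (1 - A b) * n b := by
        simp only [mul_sum]
        rw [sum_comm, ← sum_neg_distrib]
        refine sum_congr rfl fun b hb => ?_
        have h3 : (n b : ℝ) = -∑ a ∈ s, (z a : ℝ) * i a b := by exact_mod_cast hn1 b hb
        rw [h3, mul_neg, neg_neg, mul_sum]
        exact sum_congr rfl fun a ha => by rw [symm a ha b hb]; ring
      have h4 : ∑ b ∈ s, (z b).toNat • l b = ∑ b ∈ s, (z b : ℝ) * l b := by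
        refine sum_congr rfl fun b _ => ?_
        have h5 : (((z b).toNat : ℤ) : ℝ) = z b := by rw [Int.toNat_of_nonneg (hz0 b)]
        rw [nsmul_eq_mul, ← h5]
        simp only [Int.cast_natCast]
      simp only [mul_add, sum_add_distrib] at h1
      rw [h2] at h1
      have h6 : ∑ b ∈ s, (1 - A b) * n b = ∑ b ∈ s, (n b : ℝ) - ∑ b ∈ s, n b * A b := by
        rw [← sum_sub_distrib]
        exact sum_congr rfl fun b _ => by ring
      rw [h4]
      push_cast
      linarith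
  · push Not at hk
    obtain ⟨C, hC, hkC⟩ := hk
    have hd := thr_diag s i c off hc neg hC
    have hg := gen C hC
    have hk1 : k C = -1 := by omega
    have hi1 : i C C = -1 := by omega
    have hE := heq C hC
    rw [← add_sum_erase s _ hC, hk1, hi1] at hE
    push_cast at hE
    rcases Nat.eq_zero_or_pos m with rfl | hm
    · have h0 : s.erase C = ∅ := card_eq_zero.1 (by rw [card_erase_of_mem hC]; omega)
      rw [h0, sum_empty] at hE
      refine ⟨Pi.single C 1, 2, l C, fun a ha => ?_, ⟨C, by simp⟩, le_rfl, hl C hC, ?_,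
        Or.inl ⟨C, rfl⟩⟩
      · by_contra h
        have : a ≠ C := fun h1 => h (h1 ▸ hC)
        exact ha (by simp [this])
      · rw [sum_eq_single C (fun b _ hb => by simp [hb]) (fun h => (h hC).elim)]
        simp only [Pi.single_eq_same, Nat.cast_one, one_mul]
        push_cast
        linarith
    · have hm' : ∀ a, a ∈ s.erase C → a ∈ s := fun a => mem_of_mem_erase
      have hC0 : ∀ a ∈ s.erase C, 0 ≤ i a C := fun a ha =>
        off a (hm' a ha) C hC (ne_of_mem_erase ha)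
      have g1 : ∀ b ∈ s.erase C,
          ∑ a ∈ s.erase C, c a * ((i a b + i a C * i b C : ℤ) : ℝ) < 0 := by
        intro b hb
        have e1 := neg b (hm' b hb)
        have e2 := neg C hC
        rw [← add_sum_erase s _ hC] at e1 e2
        rw [hi1] at e2
        rw [symm C hC b (hm' b hb)] at e1
        have e3 : (0 : ℝ) ≤ i b C := by exact_mod_cast hC0 b hb
        have e4 : ∑ a ∈ s.erase C, c a * ((i a b + i a C * i b C : ℤ) : ℝ) =
            ∑ a ∈ s.erase C, c a * i a b + (∑ a ∈ s.erase C, c a * i a C) * i b C := by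
          rw [sum_mul, ← sum_add_distrib]
          exact sum_congr rfl fun a _ => by push_cast; ring
        rw [e4]
        push_cast at e2
        nlinarith
      have g2 : ∀ a ∈ s.erase C, -2 ≤ k a - i a C + (i a a + i a C * i a C) := by
        intro a ha
        have e1 := gen a (hm' a ha)
        have e2 := hC0 a ha
        rcases e2.eq_or_lt with h | h
        · rw [← h]; linarith
        · nlinarith
      have g3 : ∀ a ∈ s.erase C, ((k a - i a C : ℤ) : ℝ) + (l a + (i a C).toNat • l C) +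
          ∑ b ∈ s.erase C, (1 - A b) * ((i b a + i b C * i a C : ℤ) : ℝ) = 0 := by
        intro a ha
        have e1 := heq a (hm' a ha)
        rw [← add_sum_erase s _ hC, symm C hC a (hm' a ha)] at e1
        have e2 : (((i a C).toNat : ℤ) : ℝ) = i a C := by rw [Int.toNat_of_nonneg (hC0 a ha)]
        have e4 : ∑ b ∈ s.erase C, (1 - A b) * ((i b a + i b C * i a C : ℤ) : ℝ) =
            ∑ b ∈ s.erase C, (1 - A b) * i b a +
              (∑ b ∈ s.erase C, (1 - A b) * i b C) * i a C := by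
          rw [sum_mul, ← sum_add_distrib]
          exact sum_congr rfl fun b _ => by push_cast; ring
        rw [e4, nsmul_eq_mul]
        simp only [Int.cast_natCast] at e2
        rw [e2]
        push_cast
        have e5 : ∑ b ∈ s.erase C, (1 - A b) * (i b C : ℝ) = 2 - A C - l C := by linarith
        rw [e5]
        linarith
      obtain ⟨n, N, lam, h1, h2, h3, h4, h5, h6⟩ := ih (m - 1) (by omega) (s.erase C)
        (fun a b => i a b + i a C * i b C) (fun a => k a - i a C)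
        (fun a => l a + (i a C).toNat • l C) (by rw [card_erase_of_mem hC]; omega)
        (fun a ha b hb => by rw [symm a (hm' a ha) b (hm' b hb)]; ring)
        (fun a ha b hb hab => add_nonneg (off a (hm' a ha) b (hm' b hb) hab)
          (mul_nonneg (hC0 a ha) (hC0 b hb)))
        (fun a ha => hc a (hm' a ha)) g1 g2
        (fun a ha => Λ.add_mem (hl a (hm' a ha)) (Λ.nsmul_mem (hl C hC) _)) g3
      refine ⟨n, N, lam, fun a ha => hm' a (h1 a ha), h2, h3, h4, ?_, h6⟩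
      have h7 : n C = 0 := by
        by_contra h
        exact notMem_erase C s (h1 C h)
      rw [← add_sum_erase s _ hC, h7, h5]
      simp

/-- The numerical data of the compact curves `a : J` over a point, on a slice: `i` intersection
numbers, `k` degrees of the canonical class, `l` degrees of the other components of the boundary and
of the nef part, `A` log discrepancies, `c` coefficients of an anti-ample cycle. -/
def Slice (Λ : AddSubmonoid ℝ) {J : Type} [Fintype J] (A : J → ℝ) : Prop :=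
  ∃ (i : J → J → ℤ) (k : J → ℤ) (l c : J → ℝ), (∀ a b, i a b = i b a) ∧
    (∀ a b, a ≠ b → 0 ≤ i a b) ∧ (∀ a, 0 < c a) ∧ (∀ b, ∑ a, c a * i a b < 0) ∧
    (∀ a, -2 ≤ k a + i a a) ∧ (∀ a, l a ∈ Λ) ∧ ∀ a, k a + l a + ∑ b, (1 - A b) * i b a = 0

/-- (THR) -/
theorem thr (Λ : AddSubmonoid ℝ) (hΛ : ∀ x ∈ Λ, 0 ≤ x) {J : Type} [Fintype J] [Nonempty J]
    {A : J → ℝ} (h : Slice Λ A) :
    ∃ (n : J → ℕ) (N : ℤ) (lam : ℝ), (∃ a, n a ≠ 0) ∧ N ≤ 2 ∧ lam ∈ Λ ∧
      ∑ a, n a * A a = N - lam ∧ ((∃ a, A a = N - lam) ∨ ∀ a, n a ≠ 0 → A a ≤ 1) := by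
  classical
  obtain ⟨i, k, l, c, h1, h2, h3, h4, h5, h6, h7⟩ := h
  have hc : (univ : Finset J).card = (Fintype.card J - 1) + 1 := by
    have := Fintype.card_pos (α := J)
    rw [card_univ]; omega
  obtain ⟨n, N, lam, -, g2, g3, g4, g5, g6⟩ := thr_aux Λ hΛ A c _ univ i k l hc
    (fun a _ b _ => h1 a b) (fun a _ b _ => h2 a b) (fun a _ => h3 a) (fun a _ => h4 a)
    (fun a _ => h5 a) (fun a _ => h6 a) (fun a _ => h7 a)
  refine ⟨n, N, lam, g2, g3, g4, g5, g6.imp ?_ id⟩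
  rintro ⟨a, rfl⟩
  refine ⟨a, ?_⟩
  rw [← g5, sum_eq_single a (fun b _ hb => by simp [hb]) (fun h => (h (mem_univ a)).elim)]
  simp

/-- the elements `≤ R` of the monoid generated by finitely many nonnegative numbers -/
theorem closure_fin (I : Set ℝ) (hI : I.Finite) (h0 : ∀ x ∈ I, 0 ≤ x) :
    (∀ x ∈ AddSubmonoid.closure I, 0 ≤ x) ∧
      ∀ R : ℝ, {x | x ∈ AddSubmonoid.closure I ∧ x ≤ R}.Finite := by
  classical
  refine ⟨fun x hx => AddSubmonoid.closure_induction h0 le_rfl (fun _ _ _ _ => add_nonneg) hx,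
    fun R => ?_⟩
  lift I to Finset ℝ using hI
  have hrep : ∀ x ∈ AddSubmonoid.closure (I : Set ℝ), ∃ r : I → ℕ, (∀ y : I, y.1 = 0 → r y = 0) ∧
      x = ∑ y : I, r y * y.1 := by
    intro x hx
    induction hx using AddSubmonoid.closure_induction with
    | mem x hx =>
      by_cases h : x = 0
      · exact ⟨0, fun _ _ => rfl, by simp [h]⟩
      · refine ⟨Pi.single ⟨x, hx⟩ 1, fun y hy => ?_, ?_⟩
        · have : y ≠ ⟨x, hx⟩ := fun h1 => h (by rw [h1] at hy; exact hy)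
          simp [this]
        · rw [sum_eq_single ⟨x, hx⟩ (fun b _ hb => by simp [hb]) (fun h => (h (mem_univ _)).elim)]
          simp
    | zero => exact ⟨0, fun _ _ => rfl, by simp⟩
    | add x y _ _ hx hy =>
      obtain ⟨r, h1, rfl⟩ := hx
      obtain ⟨r', h2, rfl⟩ := hy
      refine ⟨r + r', fun y hy => by simp [h1 y hy, h2 y hy], ?_⟩
      simp [add_mul, sum_add_distrib]
  refine ((Set.Finite.pi' (t := fun y : I => Set.Iic ⌈R / y.1⌉₊) fun _ => Set.finite_Iic _).image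
    fun r => ∑ y : I, (r y : ℝ) * y.1).subset ?_
  rintro x ⟨hx, hR⟩
  obtain ⟨r, h1, rfl⟩ := hrep x hx
  refine ⟨r, fun y => ?_, rfl⟩
  rcases (h0 y.1 y.2).eq_or_lt with h | h
  · rw [h1 y h.symm]; exact Nat.zero_le _
  · have h2 : (r y : ℝ) * y.1 ≤ ∑ y : I, (r y : ℝ) * y.1 :=
      single_le_sum (f := fun y : I => (r y : ℝ) * y.1)
        (fun y _ => mul_nonneg (Nat.cast_nonneg _) (h0 y.1 y.2)) (mem_univ y)
    have h3 : (r y : ℝ) ≤ R / y.1 := by rw [le_div_iff₀ h]; linarith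
    exact_mod_cast h3.trans (Nat.le_ceil _)

/-- the positive values `N - lam` -/
theorem vals_fin (Λ : AddSubmonoid ℝ) (hΛ : ∀ x ∈ Λ, 0 ≤ x)
    (hf : ∀ R : ℝ, {x | x ∈ Λ ∧ x ≤ R}.Finite) :
    {v : ℝ | 0 < v ∧ ∃ (N : ℤ) (lam : ℝ), N ≤ 2 ∧ lam ∈ Λ ∧ v = N - lam}.Finite := by
  refine (((hf 2).image fun x => 1 - x).union ((hf 2).image fun x => 2 - x)).subset ?_
  rintro v ⟨hv, N, lam, h1, h2, rfl⟩
  have h3 := hΛ lam h2
  have h4 : (0 : ℝ) < N := by linarith
  have h5 : 0 < N := by exact_mod_cast h4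
  have h6 : N = 1 ∨ N = 2 := by omega
  rcases h6 with rfl | rfl
  · exact Or.inl ⟨lam, ⟨h2, by push_cast at hv; linarith⟩, by simp⟩
  · exact Or.inr ⟨lam, ⟨h2, by push_cast at hv; linarith⟩, by simp⟩

/-- (CNT) -/
theorem cnt (Λ : AddSubmonoid ℝ) (hΛ : ∀ x ∈ Λ, 0 ≤ x) (hf : ∀ R : ℝ, {x | x ∈ Λ ∧ x ≤ R}.Finite)
    {P : Type} [Fintype P] (B : P → ℕ → ℝ) (hB : ∀ p, Monotone (B p)) (h0 : ∀ p, 0 < B p 0) :
    {j | ∃ (n : P → ℕ) (N : ℤ) (lam : ℝ), (∃ p, n p ≠ 0) ∧ N ≤ 2 ∧ lam ∈ Λ ∧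
      ∑ p, n p * B p (j + 1) = N - lam ∧ ∀ p, n p ≠ 0 → B p j < B p (j + 1)}.Finite := by
  classical
  have hpos : ∀ p j, 0 < B p j := fun p j => (h0 p).trans_le (hB p (Nat.zero_le j))
  have hF := Set.Finite.prod (Set.Finite.pi' (t := fun p : P => Set.Iic ⌈2 / B p 0⌉₊)
    fun _ => Set.finite_Iic _) (vals_fin Λ hΛ hf)
  refine (hF.biUnion (t := fun q => {j | (∃ p, q.1 p ≠ 0) ∧ ∑ p, q.1 p * B p (j + 1) = q.2 ∧
    ∀ p, q.1 p ≠ 0 → B p j < B p (j + 1)}) ?_).subset ?_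
  · rintro ⟨n, v⟩ -
    refine Set.Subsingleton.finite ?_
    have key : ∀ j j', j < j' → (∃ p, n p ≠ 0) → (∀ p, n p ≠ 0 → B p j' < B p (j' + 1)) →
        ∑ p, n p * B p (j + 1) < ∑ p, n p * B p (j' + 1) := by
      rintro j j' hjj ⟨p, hp⟩ h
      refine sum_lt_sum (fun q _ => mul_le_mul_of_nonneg_left (hB q (by omega))
        (Nat.cast_nonneg _)) ⟨p, mem_univ p, ?_⟩
      have h1 : (0 : ℝ) < n p := by exact_mod_cast Nat.pos_of_ne_zero hp
      exact mul_lt_mul_of_pos_left ((hB p (show j + 1 ≤ j' by omega)).trans_lt (h p hp)) h1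
    rintro j ⟨h1, h2, h3⟩ j' ⟨-, h5, h6⟩
    by_contra hne
    rcases lt_or_gt_of_ne hne with h | h
    · have := key j j' h h1 h6
      simp only at h2 h5
      linarith
    · have := key j' j h h1 h3
      simp only at h2 h5
      linarith
  · rintro j ⟨n, N, lam, ⟨p₀, hp₀⟩, h2, h3, h4, h5⟩
    have hnn : ∀ p, 0 ≤ (n p : ℝ) * B p (j + 1) := fun p =>
      mul_nonneg (Nat.cast_nonneg _) (hpos p _).le
    have hle : ∀ p, (n p : ℝ) * B p (j + 1) ≤ N - lam := fun p =>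
      h4 ▸ single_le_sum (f := fun p => (n p : ℝ) * B p (j + 1)) (fun p _ => hnn p) (mem_univ p)
    have hN : (N : ℝ) ≤ 2 := by exact_mod_cast h2
    refine Set.mem_biUnion (x := (n, (N : ℝ) - lam)) ⟨fun p => ?_, ?_, N, lam, h2, h3, rfl⟩
      ⟨⟨p₀, hp₀⟩, h4, h5⟩
    · have h6 : (n p : ℝ) ≤ 2 / B p 0 := by
        rw [le_div_iff₀ (h0 p)]
        have := mul_le_mul_of_nonneg_left (hB p (Nat.zero_le (j + 1))) (Nat.cast_nonneg (n p) :
          (0 : ℝ) ≤ n p)
        linarith [hle p, hΛ lam h3]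
      exact_mod_cast h6.trans (Nat.le_ceil _)
    · have h1 : (0 : ℝ) < n p₀ := by exact_mod_cast Nat.pos_of_ne_zero hp₀
      exact (mul_pos h1 (hpos p₀ _)).trans_le (hle p₀)

/-- (KILL) Infinitely many flipped surfaces give one level `1 < v ≤ 2` of the log discrepancy which
is reached infinitely often. Here `P` is the finite set of divisors with log discrepancy `< 1` at the
start, `B p j` is the log discrepancy at the step `j`, and `Q j v` is any property of the values. -/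
theorem kill (I : Set ℝ) (hI : I.Finite) (hI0 : ∀ x ∈ I, 0 ≤ x)
    {P : Type} [Fintype P] (B : P → ℕ → ℝ) (hB : ∀ p, Monotone (B p)) (h0 : ∀ p, 0 < B p 0)
    (Q : ℕ → ℝ → Prop) (S : Set ℕ) (hS : S.Infinite)
    (h : ∀ j ∈ S, ∃ (J : Type) (_ : Fintype J) (_ : Nonempty J) (A : J → ℝ),
      Slice (AddSubmonoid.closure I) A ∧ (∀ a, Q j (A a)) ∧
      ∀ a, A a ≤ 1 → ∃ p, A a = B p (j + 1) ∧ B p j < B p (j + 1)) :
    ∃ v : ℝ, 1 < v ∧ v ≤ 2 ∧ {j | j ∈ S ∧ Q j v}.Infinite := by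
  classical
  obtain ⟨hΛ, hf⟩ := closure_fin I hI hI0
  by_contra hcon
  push Not at hcon
  have hV : {v : ℝ | 1 < v ∧ ∃ (N : ℤ) (lam : ℝ), N ≤ 2 ∧
      lam ∈ AddSubmonoid.closure I ∧ v = N - lam}.Finite :=
    (vals_fin _ hΛ hf).subset fun v hv => ⟨by linarith [hv.1], hv.2⟩
  refine hS (((hV.biUnion (t := fun v => {j | j ∈ S ∧ Q j v}) ?_).union
    (cnt _ hΛ hf B hB h0)).subset fun j hj => ?_)
  · rintro v ⟨h1, N, lam, h2, h3, rfl⟩
    have hN : (N : ℝ) ≤ 2 := by exact_mod_cast h2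
    exact hcon _ h1 (by linarith [hΛ lam h3])
  · obtain ⟨J, _, _, A, hA, hQ, hP⟩ := h j hj
    obtain ⟨n, N, lam, ⟨a₀, ha₀⟩, g2, g3, g4, g5⟩ := thr _ hΛ hA
    have main : ∀ n : J → ℕ, (∃ a, n a ≠ 0) → ∑ a, n a * A a = N - lam →
        (∀ a, n a ≠ 0 → A a ≤ 1) → j ∈ {j | ∃ (n : P → ℕ) (N : ℤ) (lam : ℝ), (∃ p, n p ≠ 0) ∧
          N ≤ 2 ∧ lam ∈ AddSubmonoid.closure I ∧ ∑ p, n p * B p (j + 1) = N - lam ∧
          ∀ p, n p ≠ 0 → B p j < B p (j + 1)} := by
      rintro n ⟨a₀, ha₀⟩ g4 g5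
      obtain ⟨p₀, -⟩ := hP a₀ (g5 a₀ ha₀)
      have hex : ∀ a, ∃ p, n a ≠ 0 → A a = B p (j + 1) ∧ B p j < B p (j + 1) := by
        intro a
        by_cases ha : n a = 0
        · exact ⟨p₀, fun h => (h ha).elim⟩
        · obtain ⟨p, hp⟩ := hP a (g5 a ha)
          exact ⟨p, fun _ => hp⟩
      choose d hd using hex
      refine ⟨fun p => ∑ a with d a = p, n a, N, lam, ⟨d a₀, fun h => ha₀ ?_⟩, g2, g3, ?_,
        fun p hp => ?_⟩
      · exact sum_eq_zero_iff.1 h a₀ (by simp)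
      · rw [← g4, ← sum_fiberwise (s := univ) (g := d) (f := fun a => (n a : ℝ) * A a)]
        refine sum_congr rfl fun p _ => ?_
        push_cast
        rw [sum_mul]
        refine sum_congr rfl fun a ha => ?_
        by_cases h : n a = 0
        · simp [h]
        · rw [(hd a h).1, (mem_filter.1 ha).2]
      · obtain ⟨a, ha, h⟩ := exists_ne_zero_of_sum_ne_zero hp
        rw [← (mem_filter.1 ha).2]
        exact (hd a h).2
    rcases g5 with ⟨a, ha⟩ | g5
    · by_cases h1 : A a ≤ 1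
      · refine Or.inr (main (Pi.single a 1) ⟨a, by simp⟩ ?_ fun b hb => ?_)
        · rw [sum_eq_single a (fun b _ hb => by simp [hb]) (fun h => (h (mem_univ a)).elim)]
          simpa using ha
        · by_cases hba : b = a
          · rw [hba]; exact h1
          · exact (hb (by simp [hba])).elim
      · exact Or.inl (Set.mem_biUnion (x := A a) ⟨not_le.1 h1, N, lam, g2, g3, ha⟩ ⟨hj, hQ a⟩)
    · exact Or.inr (main n ⟨a₀, ha₀⟩ g4 g5)

end P277Z.Num
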